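import Vale.Agent.P275MH.Del
import Vale.Agent.P275AR.Pair

/-!
# P275, weights: the exact triangle of a pair of manifolds
-/

open scoped Manifold ContDiff Topology
open Filter Set Function
open Vale.Agent.P272.K Vale.Agent.P281Z.Hg Vale.Agent.P275MC Vale.Agent.P275FM Vale.Agent.P275AR
open Vale.Agent.P275RG

set_option linter.unusedSectionVars false

noncomputable section

namespace Vale.Agent.P275MH

variable {m k : ℕ} {M Z V : Type} [TopologicalSpace M] [ChartedSpace (Cm m) M] [T2Space M]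
  [IsManifold 𝓘(ℂ, Cm m) ω M] [TopologicalSpace Z] [ChartedSpace (Cm k) Z] [T2Space Z]
  [IsManifold 𝓘(ℂ, Cm k) ω Z] [TopologicalSpace V] [ChartedSpace (Cm m) V] [T2Space V]
  [IsManifold 𝓘(ℂ, Cm m) ω V] {cM : Cp m M} {cZ : Cp k Z} {i : Z → M} {j : V → M} {Ψ : M → Z}

variable (hi : Smo k m i) (he : Topology.IsClosedEmbedding i) (oj : OE m j)
  (rg : range j = (range i)ᶜ)

include rg in
theorem rg_eq : j '' univ = univ \ range i := by rw [image_univ, rg, compl_eq_univ_sdiff]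

include rg in
theorem act_j : Act (univ \ range i) univ (pb oj.smo) :=
  Act.res oj (by rw [rg, compl_eq_univ_sdiff]) (subset_univ _)

variable (i) in
theorem act_u : Act (univ : Set Z) (i ⁻¹' univ) (LinearMap.id : SF k Z →ₗ[ℂ] SF k Z) :=
  Act.incl fun _ _ => trivial

/-- the coboundary of the pair, with values in the cohomology of the manifold `V` -/
def bdV : Hc k (univ : Set Z) →ₗ[ℂ] Hc m (univ : Set V) :=
  (act_j oj rg).map ∘ₗ bd hi he isOpen_univ ∘ₗ (act_u i).map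

/-- extension by zero -/
def exV : Hc m (univ : Set V) →ₗ[ℂ] Hc m (univ : Set M) := (Act.ext oj (subset_univ _)).map

/-- restriction -/
def rsZ : Hc m (univ : Set M) →ₗ[ℂ] Hc k (univ : Set Z) := (act_pb hi he.isProperMap).map

theorem bdV_apply (x : Hc k (univ : Set Z)) :
    bdV hi he oj rg x = (act_j oj rg).map (bd hi he isOpen_univ ((act_u i).map x)) := rfl

include rg in
theorem ext_j {a : SF m M} (ha : a ∈ Ac m (univ \ range i)) : oj.ext (pb oj.smo a) = a :=
  let ⟨_, _, h2, h3⟩ := ha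
  oj.ext_pb (Sp_mono (h2.trans (by rw [rg, compl_eq_univ_sdiff])) h3)

theorem bdV_spec {z : SF m M} {y : SF m V} (hz : z ∈ Ac m univ) (hy : y ∈ Ac m univ)
    (e : dd m M z = oj.ext y) {h1 h2 h3} : bdV hi he oj rg (hc (pb hi z) h1 h2) = hc y hy h3 := by
  have k : dd m M z ∈ Ac m (univ \ range i) := e ▸ rg_eq rg ▸ oj.ext_Ac hy
  refine (congrArg (act_j oj rg).map (bd_pb hi he isOpen_univ hz k)).trans ?_
  rw [Act.map_hc]
  exact hc_congr (show pb oj.smo (dd m M z) = y by rw [e, oj.pb_ext hy]) _ _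

theorem bdV_bd (x : Hc k (univ : Set Z)) : Bd hi oj x (bdV hi he oj rg x) := by
  obtain ⟨b, hb, h0, rfl⟩ := hc_ind x
  obtain ⟨z, h1, e, h2, h3, h4⟩ := bd_rep hi he isOpen_univ ((act_u i).mem b hb) h0
  have h5 := (act_pb hi he.isProperMap).mem z h1
  have h6 : dd _ _ (pb hi z) = 0 := by rw [← pb_dd, pb_diff hi h3]
  have h7 : hc b hb h0 = hc (pb hi z) h5 h6 := hc_eq.2
    ⟨-e, Submodule.neg_mem _ (Ac_mono (subset_univ _) h2), by
      rw [map_neg, sub_eq_iff_eq_add, neg_add_eq_sub]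
      exact h4⟩
  have h8 := (act_j oj rg).mem _ h3
  have h9 : dd _ _ (pb oj.smo (dd m M z)) = 0 := by rw [← pb_dd, dd_dd, map_zero]
  exact ⟨z, h1, ⟨_, h5⟩, Subtype.ext h6, ⟨_, h8⟩, Subtype.ext h9, rfl, (ext_j oj rg h3).symm, h7,
    h7 ▸ bdV_spec hi he oj rg h1 h8 (ext_j oj rg h3).symm (h3 := h9)⟩

theorem j_ext (y : Hc m (univ : Set V)) :
    (act_j oj rg).map ((Act.ext oj (rg_eq rg).subset).map y) = y := by
  rw [← Act.map_comp, Act.map_id _ fun _ hu => oj.pb_ext hu]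

theorem ext_j' (y : Hc m (univ \ range i)) :
    (Act.ext oj (rg_eq rg).subset).map ((act_j oj rg).map y) = y := by
  rw [← Act.map_comp, Act.map_id _ fun _ hu => ext_j oj rg hu]

theorem exV_eq (y : Hc m (univ : Set V)) :
    exV oj y = (Act.incl sdiff_subset).map ((Act.ext oj (rg_eq rg).subset).map y) := by
  obtain ⟨a, ha, h0, rfl⟩ := hc_ind y
  rfl

theorem u_bij : Bijective (act_u (k := k) i).map :=
  Act.bij _ (Act.incl (subset_univ _)) (fun _ _ => rfl) fun _ _ => rfl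

theorem u_rsZ (x : Hc m (univ : Set M)) :
    (act_u i).map (rsZ hi he x) = (act_res hi he univ).map x := by
  obtain ⟨a, ha, h0, rfl⟩ := hc_ind x
  rfl

include rg in
/-- exactness at the cohomology of `M` -/
theorem ex_M (x : Hc m (univ : Set M)) : rsZ hi he x = 0 ↔ ∃ y, x = exV oj y := by
  rw [← map_eq_zero_iff _ (u_bij (i := i)).1, u_rsZ, ex_mid hi he isOpen_univ]
  exact ⟨fun ⟨y, e⟩ => ⟨(act_j oj rg).map y, by rw [exV_eq oj rg, ext_j' oj rg, e]⟩,
    fun ⟨y, e⟩ => ⟨_, e.trans (exV_eq oj rg y)⟩⟩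

/-- exactness at the cohomology of `Z` -/
theorem ex_Z (x : Hc k (univ : Set Z)) : bdV hi he oj rg x = 0 ↔ ∃ y, x = rsZ hi he y := by
  have e : bdV hi he oj rg x = 0 ↔ bd hi he isOpen_univ ((act_u i).map x) = 0 := ⟨fun e => by
    rw [← ext_j' oj rg (bd _ _ _ _), ← bdV_apply hi he oj rg, e, map_zero], fun e => by
    rw [bdV_apply, e, map_zero]⟩
  rw [e, ex_quo hi he isOpen_univ]
  exact exists_congr fun y => by rw [← u_rsZ, (u_bij (i := i)).1.eq_iff]

/-- exactness at the cohomology of `V` -/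
theorem ex_V (x : Hc m (univ : Set V)) : exV oj x = 0 ↔ ∃ y, x = bdV hi he oj rg y := by
  rw [exV_eq oj rg, ex_sub hi he isOpen_univ, (u_bij (i := i)).2.exists]
  refine exists_congr fun y => ⟨fun e => ?_, fun e => ?_⟩
  · rw [bdV_apply, ← e, j_ext oj rg]
  · rw [e, bdV_apply, ext_j' oj rg]

/-- **the coboundary is graded** -/
theorem grd_bdV {cV : Cp m V} (cont : Continuous Ψ) (ret : ∀ z, Ψ (i z) = z) (aj : Alg cV cM j)
    (aΨ : Alg cV cZ fun v => Ψ (j v)) : Grd (wt cZ) (wt cV) 0 (bdV hi he oj rg) :=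
  grd_delta hi oj (fun _ hx => not_not.1 fun k => hx (rg.symm.subset k)) cont ret aj aΨ
    (bdV_bd hi he oj rg)

theorem grd_rsZ (ai : Alg cZ cM i) : Grd (wt cM) (wt cZ) 0 (rsZ hi he) :=
  grd_pb ai he.isProperMap hi

end Vale.Agent.P275MH
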