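import Vale.Agent.P275AR.Cp

/-!
# P275, weights: the coboundary of a pair with an algebraic retraction is graded
-/

open scoped Manifold ContDiff Topology Matrix
open Filter Set Function
open Vale.Agent.P272.K Vale.Agent.P281Z.Hg Vale.Agent.P275MC Vale.Agent.P275FM Vale.Agent.P275AR
open Vale.Agent.P299.IX Vale.Agent.P299.IX.Fock
open Vale.Agent.P281Z (HolM Mf Emb off)
open Vale.Agent.P277Z.Slc (Snc St)
open Vale.Agent.P275RG
open Vale.Agent.P280Z.Pu (smo_of)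

set_option linter.unusedSectionVars false

noncomputable section

namespace Vale.Agent.P275MH

section alg

variable {B A : Fam} {M : Sys B A} {c : Matrix B.σ A.σ ℂ}

/-- coefficients which only see empty pieces act by zero -/
theorem act_empty (h : ∀ t s, c t s ≠ 0 → IsEmpty (B.S t).X) : M.act c = 0 :=
  LinearMap.ext fun u => funext fun t => by
    rw [Sys.act_apply]
    refine Finset.sum_eq_zero fun s _ => ?_
    by_cases h0 : c t s = 0
    · rw [h0, zero_smul]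
    · exact eq_zero_of_ZP fun x => (h t s h0).elim x

variable {r r' : ℕ}

/-- exterior multiplication as a matrix -/
def eV (v : Fin r → ℂ) : Matrix (FI r) (FI r) ℂ := epsV v

theorem mul_ne {α β γ : Type} [Fintype β] {P : Matrix α β ℂ} {Q : Matrix β γ ℂ} {a : α} {b : γ}
    (h : (P * Q) a b ≠ 0) : ∃ x, P a x ≠ 0 ∧ Q x b ≠ 0 :=
  let ⟨x, _, k⟩ := Finset.exists_ne_zero_of_sum_ne_zero h
  ⟨x, left_ne_zero_of_mul k, right_ne_zero_of_mul k⟩

theorem eV_add (v w : Fin r → ℂ) : eV (v + w) = eV v + eV w := epsV_add v w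

theorem eV_anti (v : Fin r → ℂ) (J : Matrix (Fin r) (Fin r') ℂ) :
    eV (1 : Fin r → ℂ) * (eV v * lr J) + eV v * lr J * eV (1 : Fin r' → ℂ) =
      -(eV v * eV (1 - J *ᵥ 1 - v) * lr J) := by
  have h1 := eV_add (1 - J *ᵥ 1 - v) (J *ᵥ 1 + v)
  have h2 : lr J * eV (1 : Fin r' → ℂ) = eV (J *ᵥ 1) * lr J := F1aH.lr_epsV J 1
  have h3 : eV 1 * eV v = -(eV v * eV 1) := epsV_epsV 1 v
  have h4 : eV v * eV v = 0 := epsV_sq v
  rw [show 1 - J *ᵥ 1 - v + (J *ᵥ 1 + v) = 1 by abel, eV_add] at h1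
  rw [Matrix.mul_assoc (eV v) (lr J), h2, ← Matrix.mul_assoc, ← Matrix.mul_assoc, h3, h1,
    mul_add, mul_add, h4, add_zero, ← Matrix.add_mul, ← Matrix.neg_mul]
  congr 1
  abel

theorem eV_ev {v : Fin r → ℂ} {I : FI r} (h : (eV v *ᵥ ev ∅) I ≠ 0) : ∃ l, v l ≠ 0 ∧ l ∈ I := by
  obtain ⟨l, a, -, rfl⟩ := epsV_ne ((mulVec_ev (epsV v) ∅ I).symm.trans_ne h)
  exact ⟨l, a, Finset.mem_insert_self _ _⟩

end alg

section mor

variable {X X' : Dia} {M : Sys X'.toFam X.toFam} {c : Matrix X'.σ X.σ ℂ}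

/-- morphisms which anticommute with the Cech differential -/
theorem mor_act (h : X.OK) (h' : X'.OK) (h₁ : X'.M.Cmp M M) (h₂ : M.Cmp X.M M) (hc : M.Sup c)
    (e : M.act (X'.c * c + c * X.c) = 0) : Tri.Mor X.tri X'.tri 0 (M.act c ∘ₗ X.par) :=
  ⟨⟨-1, by simp, fun a => by
    change X'.del (M.act c (X.par a)) = (-1 : ℂ) • M.act c (X.par (X.del a))
    rw [Fam.par_del, map_neg, Sys.act_del, neg_one_smul, neg_neg], fun a => by
    change X'.d (M.act c (X.par a)) - X'.del (M.act c (X.par a)) =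
      (-1 : ℂ) • M.act c (X.par (X.d a - X.del a))
    rw [map_sub, map_sub, Fam.par_d, Fam.par_del, map_neg, map_neg, Sys.act_d, Sys.act_del,
      neg_one_smul]
    abel, fun a => by
    change X'.δ (M.act c (X.par a)) = (-1 : ℂ) • M.act c (X.par (X.δ a))
    have e' := LinearMap.congr_fun e a
    rw [Sys.act_add, LinearMap.add_apply, LinearMap.zero_apply] at e'
    rw [Dia.δ_apply, Dia.δ_apply, ← Sys.act_par, ← Sys.act_par, Fam.par_par,
      h₁.act h'.sup hc, h₂.act hc h.sup, neg_one_smul]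
    exact eq_neg_of_add_eq_zero_left e'⟩, fun q a => by
    change X'.dg q (M.act c (X.par a)) = M.act c (X.par (X.dg q a))
    rw [← Sys.act_dg]
    exact congrArg _ (Fam.gl_comm _ _ _)⟩

end mor

section gen

variable {n : ℕ} {X : Type} [TopologicalSpace X] [ChartedSpace (Cm n) X]
  [IsManifold 𝓘(ℂ, Cm n) ω X]

/-- generic points of the strata -/
theorem gen_pt {κ : Type} [Fintype κ] {G : κ → Set X} (hG : Snc n G) {x : X} {I : Set κ}
    (hx : ∀ l ∈ I, x ∈ G l) : ∃ᶠ y in 𝓝 x, ∀ l, y ∈ G l ↔ l ∈ I := by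
  classical
  obtain ⟨ζ, h1, h2⟩ := hG x
  have ht : Tendsto (fun (s : ℝ) (b : {k // x ∈ G k}) => if b.1 ∈ I then 0 else (s : ℂ)) (𝓝[>] 0)
      (𝓝 0) := by
    refine tendsto_pi_nhds.2 fun b => tendsto_nhdsWithin_of_tendsto_nhds ?_
    split_ifs
    · exact tendsto_const_nhds
    · simpa using Complex.continuous_ofReal.tendsto 0
  obtain ⟨z, hz1, hz2⟩ := P281Z.Rs.Cmp.curve h2 (fun k => (h1 k).mem.2 k.2) ht
  have h3 : ∀ᶠ y in 𝓝 x, ∀ k, x ∉ G k → y ∉ G k := eventually_all.2 fun k => by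
    by_cases hk : x ∈ G k
    · exact .of_forall fun _ h => absurd hk h
    · exact ((h1 k).not_mem_near hk).mono fun _ h _ => h
  refine hz1.frequently (Eventually.frequently ?_)
  filter_upwards [hz2, hz1.eventually h3, hz1.eventually (eventually_all.2 fun k => (h1 k).1),
    self_mem_nhdsWithin] with s a1 a2 a3 a4 l
  refine ⟨fun c => by_contra fun hk => ?_, fun hl => (a3 l).1 ((a1 ⟨l, hx l hl⟩).trans (if_pos hl))⟩
  have h4 := (a1 ⟨l, not_not.1 fun d => a2 l d c⟩).symm.trans ((a3 l).2 c)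
  exact (ne_of_gt a4 : s ≠ 0) (by simpa [hk] using h4)

theorem oe_val (O : TopologicalSpace.Opens X) : OE n (Subtype.val : O → X) :=
  oe_of_emb (S := O) ⟨contMDiff_subtype_val, Subtype.val_injective, fun x =>
    .of_chart (contMDiff_subtype_val x) (P277Z.at_chart x) (P277Z.at_chart _)
      (P281Z.imm_id (n := n) x _ _ (P277Z.at_chart x) (P277Z.at_chart x)), Subtype.range_coe⟩

end gen

variable {m k : ℕ} {M Z V : Type} [TopologicalSpace M] [ChartedSpace (Cm m) M] [T2Space M]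
  [IsManifold 𝓘(ℂ, Cm m) ω M] [TopologicalSpace Z] [ChartedSpace (Cm k) Z] [T2Space Z]
  [IsManifold 𝓘(ℂ, Cm k) ω Z] [TopologicalSpace V] [ChartedSpace (Cm m) V] [T2Space V]
  [IsManifold 𝓘(ℂ, Cm m) ω V] {cM : Cp m M} {cZ : Cp k Z} {c : Cp m V} {i : Z → M} {j : V → M}
  {Ψ : M → Z} {p : c.Y.X → cM.Y.X} {φ : c.Y.X → cZ.Y.X}

/-- `x'` is the coboundary of `x` -/
def Bd (hi : Smo k m i) (oj : OE m j) (x : Hc k (univ : Set Z)) (x' : Hc m (univ : Set V)) : Prop :=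
  ∃ z ∈ Ac m (univ : Set M), ∃ (w : Ac k (univ : Set Z)) (hw : dc k univ w = 0)
    (y : Ac m (univ : Set V)) (hy : dc m univ y = 0), pb hi z = w ∧ dd m M z = oj.ext y ∧
      x = Coh.mk w hw ∧ x' = Coh.mk y hy

variable (cM cZ c i j Ψ p φ) in
/-- a pair with a retraction, on a suitable compactification of the open part -/
structure Dat : Prop where
  hi : Smo k m i
  oj : OE m j
  cov : ∀ x, x ∉ range j → x ∈ range i
  cont : Continuous Ψ
  ret : ∀ z, Ψ (i z) = z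
  hp : Ext c cM j p
  hφ : Ext c cZ (fun v => Ψ (j v)) φ

variable (cM c p) in
/-- the components which meet the preimage of `M` -/
def In (l : Fin c.r) : Prop := ∃ x ∈ c.G l, p x ∈ off cM.G

variable (cZ c φ) in
/-- the components which are mapped into a component of the boundary of `Z` -/
def Out (l : Fin c.r) : Prop := ∃ l', MapsTo φ (c.G l) (cZ.G l')

namespace Dat

variable (h : Dat cM cZ c i j Ψ p φ) {y : c.Y.X} {l l' : Fin c.r}
include h

theorem phi {x : M} (e : p y = cM.j x) : φ y = cZ.j (Ψ x) := by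
  have := c.neBot y
  exact tendsto_nhds_unique (((h.hφ.hol.cont.tendsto y).comp tendsto_comap).congr h.hφ.eq)
    (((cZ.hol.cont.comp h.cont).tendsto x).comp (h.hp.tend e))

theorem back {v : V} (e : p y = cM.j (j v)) : y = c.j v := by
  have := c.neBot y
  have h1 : Tendsto (fun x => x) (comap c.j (𝓝 y)) (𝓝 v) :=
    h.oj.emb.isInducing.tendsto_nhds_iff.2 (h.hp.tend e)
  exact tendsto_nhds_unique (f := c.j) tendsto_comap ((c.hol.cont.tendsto _).comp h1)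

theorem bdy (hy : y ∈ c.G l) (e : p y ∈ off cM.G) : ∃ z, p y = cM.j (i z) ∧ φ y = cZ.j z := by
  obtain ⟨x, hx⟩ := cM.ex e
  obtain ⟨z, rfl⟩ := h.cov x (by
    rintro ⟨v, rfl⟩
    exact c.mem v l (h.back hx.symm ▸ hy))
  exact ⟨z, hx.symm, by rw [h.phi hx.symm, h.ret]⟩

theorem not_out (a : In cM c p l) : ¬Out cZ c φ l := fun ⟨l', b⟩ => by
  obtain ⟨x, h1, h2⟩ := a
  obtain ⟨z, -, h3⟩ := h.bdy h1 h2
  exact cZ.mem z l' (h3 ▸ b h1)

theorem esc (a : In cM c p l) (hy : y ∈ c.G l) (e : φ y ∈ off cZ.G) : p y ∈ off cM.G := by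
  obtain ⟨z, hz⟩ := cZ.ex e
  have h1 : ∃ᶠ x in 𝓝 y, x ∈ c.G l ∧ p x ∈ off cM.G := fun k => by
    obtain ⟨x, h1, h2⟩ := a
    exact P281Z.Nt.Hp.idh (c.conn l).isPreconnected (c.hy l) (cM.bd.pre h.hp.hol) hy
      (k.mono fun x hx b d => hx ⟨b, d⟩) h1 h2
  have := frequently_iff_neBot.1 h1
  have h2 : ∀ x, ∃ w, x ∈ c.G l ∧ p x ∈ off cM.G → p x = cM.j (i w) ∧ φ x = cZ.j w := fun x => by
    by_cases b : x ∈ c.G l ∧ p x ∈ off cM.G
    · exact (h.bdy b.1 b.2).imp fun _ d _ => d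
    · exact ⟨z, fun d => absurd d b⟩
  choose w hw using h2
  have h3 := (mem_inf_of_right (mem_principal_self _) :
    {x | x ∈ c.G l ∧ p x ∈ off cM.G} ∈ 𝓝 y ⊓ 𝓟 {x | x ∈ c.G l ∧ p x ∈ off cM.G})
  have h4 : Tendsto w (𝓝 y ⊓ 𝓟 {x | x ∈ c.G l ∧ p x ∈ off cM.G}) (𝓝 z) := by
    rw [cZ.opn.isInducing.tendsto_nhds_iff, hz]
    exact ((h.hφ.hol.cont.tendsto y).mono_left inf_le_left).congr'
      (mem_of_superset h3 fun x hx => (hw x hx).2)
  have h5 : p y = cM.j (i z) := tendsto_nhds_unique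
    (((h.hp.hol.cont.tendsto y).mono_left inf_le_left).congr'
      (mem_of_superset h3 fun x hx => (hw x hx).1))
    (((cM.hol.cont.comp h.hi.cont).tendsto z).comp h4)
  exact h5 ▸ cM.mem _

theorem empty (a : In cM c p l) (b : ¬In cM c p l') (d : ¬Out cZ c φ l') (hy : y ∈ c.G l)
    (hy' : y ∈ c.G l') : False := by
  obtain ⟨x, hx⟩ := (gen_pt c.snc (I := {l, l'}) (x := y) (by
    rintro _ (rfl | rfl) <;> assumption)).exists
  have h1 : φ x ∉ off cZ.G := fun e =>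
    b ⟨x, (hx l').2 (Or.inr rfl), h.esc a ((hx l).2 (Or.inl rfl)) e⟩
  obtain ⟨l₀, h2⟩ := not_off.1 h1
  obtain ⟨l₁, h3, h4⟩ := h.hφ.comps h2
  rcases (hx l₁).1 h3 with rfl | rfl
  · exact h.not_out a ⟨l₀, h4⟩
  · exact d ⟨l₀, h4⟩

/-- on the components which meet the preimage of `M` the two pull-backs agree -/
theorem loc (a : In cM c p l) {d : ℕ} {S : Mf d} {g : S.X → c.Y.X} (hg : HolM d m g)
    (hl : ∀ s, g s ∈ c.G l) {z : SF m M} (hz : z ∈ Ac m univ) (hw : pb h.hi z ∈ Ac k univ) :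
    pb (smo_of hg) (pb (smo_of h.hp.hol) ((oe cM).ext z)) =
      pb (smo_of hg) (pb (smo_of h.hφ.hol) ((oe cZ).ext (pb h.hi z))) := by
  refine sub_eq_zero.1 (eq_zero_of_ZP fun s => ?_)
  by_cases e : p (g s) ∈ off cM.G
  · let O : TopologicalSpace.Opens S.X :=
      ⟨{s | p (g s) ∈ off cM.G}, (off_open cM.snc).preimage (h.hp.hol.cont.comp hg.cont)⟩
    choose w h1 h2 using fun s : O => h.bdy (hl s) s.2
    have h3 : HolM d d (Subtype.val : O → S.X) := contMDiff_subtype_val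
    have h4 : HolM d k w := fun s =>
      cZ.lift ((((h.hφ.hol.comp hg).comp h3).at s).cng (.of_forall h2))
    refine ((oe_val (n := d) O).pb_ZP_iff (x := ⟨s, e⟩)).1 ?_
    rw [map_sub, ← pb_comp, ← pb_comp, ← pb_comp, ← pb_comp,
      pb_eq _ (Pb1H.smo_comp (smo_of h4) (Pb1H.smo_comp h.hi (oe cM).smo)) h1,
      pb_eq _ (Pb1H.smo_comp (smo_of h4) (oe cZ).smo) h2, pb_comp (smo_of h4) (oe cZ).smo,
      pb_comp (smo_of h4) (Pb1H.smo_comp h.hi (oe cM).smo), pb_comp h.hi (oe cM).smo, (oe cM).pb_ext hz, (oe cZ).pb_ext hw, sub_self]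
    exact Submodule.zero_mem _
  · refine Submodule.sub_mem _ (pb_ZP _ (pb_ZP _ ((oe cM).ext_rg hz _ ?_)))
      (pb_ZP _ (pb_ZP _ ((oe cZ).ext_rg hw _ ?_)))
    · rwa [cM.emb.rng]
    · rw [cZ.emb.rng]
      exact fun b => e (h.esc a (hl s) b)

theorem ext_ext {y : SF m V} (hy : y ∈ Ac m univ) :
    (oe c).ext y = pb (smo_of h.hp.hol) ((oe cM).ext (h.oj.ext y)) := by
  have h1 := Ac_mono (subset_univ _) (h.oj.ext_Ac hy)
  refine (oe c).ext_eq (fun x hx => pb_ZP _ ?_) ?_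
  · obtain ⟨K, k1, -, k3⟩ := hy
    refine (oe cM).ext_Sp (k1.image h.oj.smo.cont) (h.oj.ext_Sp k1 k3) _ ?_
    rintro ⟨_, ⟨v, -, rfl⟩, e⟩
    exact hx ⟨v, (h.back e.symm).symm⟩
  · rw [← pb_comp, pb_eq _ (Pb1H.smo_comp h.oj.smo (oe cM).smo) h.hp.eq,
      pb_comp h.oj.smo (oe cM).smo, (oe cM).pb_ext h1, h.oj.pb_ext hy]

theorem grd {δ : Hc k (univ : Set Z) →ₗ[ℂ] Hc m (univ : Set V)} (hδ : ∀ x, Bd h.hi h.oj x (δ x)) :
    Grd (wt cZ) (wt c) 0 δ := by
  classical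
  let v : Fin c.r → ℂ := fun l => if In cM c p l then 1 else 0
  let J : Matrix (Fin c.r) (Fin cZ.r) ℂ := Matrix.of fun l l' =>
    if a : Out cZ c φ l then if a.choose = l' then 1 else 0 else 0
  have v1 : ∀ l, v l ≠ 0 → In cM c p l := fun l a => by_contra fun b => a (if_neg b)
  have j1 : Cmb cZ.G c.G φ J := fun l l' a => by
    have b : Out cZ c φ l := by_contra fun b => a (dif_neg b)
    have d : b.choose = l' := by_contra fun d => a ((dif_pos b).trans (if_neg d))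
    exact d ▸ b.choose_spec
  have j2 : ∀ l, (J *ᵥ 1) l = if Out cZ c φ l then 1 else 0 := fun l => by
    by_cases b : Out cZ c φ l <;> simp [J, Matrix.mulVec, dotProduct, b]
  have s1 : (sys c.snc cZ.snc φ).Sup (eV v * lr J) := fun K I a => by
    obtain ⟨K', b1, b2⟩ := mul_ne a
    obtain ⟨l, -, -, rfl⟩ := epsV_ne b1
    exact (sys_R h.hφ.hol).2 fun x hx => (sys_R h.hφ.hol).1
      (j1.sup (h := cZ.snc) (h' := c.snc) h.hφ.hol K' I b2) (St_insert.1 hx).2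
  have m1 := mor_act (X := KC cZ) (X' := KC c) (arr_ok _) (arr_ok _) (sys_cmp fun _ => rfl)
    (sys_cmp fun _ => rfl) s1 (by
      refine (congrArg _ (eV_anti v J)).trans (act_empty fun K I a => ⟨fun s => ?_⟩)
      obtain ⟨K', b, -⟩ := mul_ne (neg_ne_zero.1 a)
      obtain ⟨K'', b1, b2⟩ := mul_ne b
      obtain ⟨l, a1, -, rfl⟩ := epsV_ne b1
      obtain ⟨l', a2, -, rfl⟩ := epsV_ne b2
      have a3 := St_insert.1 ((inc_emb c.snc _).mem s)
      rw [Pi.sub_apply, Pi.sub_apply, j2] at a2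
      refine h.empty (v1 l a1) (fun d => a2 ?_) (fun d => a2 ?_) a3.1 (St_insert.1 a3.2).1
      · simp [v, d, h.not_out d]
      · simp [v, d, imp_not_comm.1 h.not_out d])
  refine grd_of ((KC_ok cZ).grd_mor (KC_ok c) m1).neg fun x => ?_
  obtain ⟨z, hz, w, hw, y, hy, e2, e3, rfl, e4⟩ := hδ x
  set a := pb (smo_of h.hp.hol) ((oe cM).ext z) with ha
  have f1 : (KC c).d (ext0 c.snc a) = em c y := by
    rw [ext0_eq, Dia.Ov.d_aug, em_apply, h.ext_ext y.2, ← e3, (oe cM).ext_dd hz, pb_dd]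
    rfl
  have f2 : (ovr c.snc).aug (eV (1 - v) *ᵥ ev ∅) (pr _ _ a) = 0 := by
    refine Dia.Ov.aug_zero (V := p ⁻¹' off cM.G) (op_Ac (opr_vl _) (Ac_iff.2 fun x hx =>
      pb_Nb _ (Ac_iff.1 (ext_off hz) _ hx))) fun I hI s hs => ?_
    obtain ⟨l, a1, a2⟩ := eV_ev hI
    exact a1 (by simp [v, show In cM c p l from ⟨_, (inc_emb c.snc _).mem s l a2, hs⟩])
  have f3 : (sys c.snc cZ.snc φ).act (eV v * lr J) ((KC cZ).par (em cZ w)) =
      (ovr c.snc).aug (eV v *ᵥ ev ∅) (pr _ _ a) := by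
    rw [em_apply, ext0_eq, Dia.Ov.par_aug]
    refine (Dia.Ov.act_aug (B := ovr cZ.snc) (B' := ovr c.snc) h.hφ.hol sys_ov s1 _ _).trans ?_
    rw [← Matrix.mulVec_mulVec, F1aH.lr_ev]
    refine funext fun I => ?_
    rw [Dia.Ov.aug_apply, Dia.Ov.aug_apply]
    by_cases hI : (eV v *ᵥ ev ∅) I = 0
    · rw [hI, zero_smul, zero_smul]
    · obtain ⟨l, a1, a2⟩ := eV_ev hI
      rw [pb_pr, pb_pr, pb_pr, ← e2, ha]
      exact congrArg (fun t => _ • pr _ _ t) (h.loc (v1 l a1) (inc_emb c.snc I).hol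
        (fun s => (inc_emb c.snc I).mem s l a2) hz (e2 ▸ w.2)).symm
  have f4 : (KC c).δ (ext0 c.snc a) = (ovr c.snc).aug (eV v *ᵥ ev ∅) (pr _ _ a) := by
    rw [ext0_eq, Dia.Ov.δ_aug (arr_ok _), ← add_zero ((ovr c.snc).aug (eV v *ᵥ ev ∅) _), ← f2]
    refine funext fun I => ?_
    rw [Pi.add_apply, Dia.Ov.aug_apply, Dia.Ov.aug_apply, Dia.Ov.aug_apply, ← add_smul,
      ← Pi.add_apply, ← Matrix.add_mulVec, ← eV_add, add_sub_cancel]
    rfl
  rw [e4, LinearMap.neg_apply, eq_neg_iff_add_eq_zero]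
  have g1 := (ch_em c).cyc y hy
  have g2 := m1.ch.cyc _ ((ch_em cZ).cyc w hw)
  refine (Coh.mk_add g1 g2 (by rw [map_add, g1, g2, add_zero])).symm.trans
    (Coh.mk_eq_zero.2 ⟨ext0 c.snc a, ?_⟩)
  rw [Dia.tri_D_apply, Dia.D_apply, f1, f4, ← f3]
  rfl

end Dat

/-- **the coboundary of a pair with an algebraic retraction is graded** -/
theorem grd_delta {cV : Cp m V} (hi : Smo k m i) (oj : OE m j) (cov : ∀ x, x ∉ range j → x ∈ range i)
    (cont : Continuous Ψ) (ret : ∀ z, Ψ (i z) = z) (aj : Alg cV cM j)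
    (aΨ : Alg cV cZ fun v => Ψ (j v)) {δ : Hc k (univ : Set Z) →ₗ[ℂ] Hc m (univ : Set V)}
    (hδ : ∀ x, Bd hi oj x (δ x)) : Grd (wt cZ) (wt cV) 0 δ := by
  obtain ⟨c₁, q, p, h1, h2⟩ := aj.ext
  obtain ⟨c₂, q', φ, h3, h4⟩ := (aΨ.comp h1.alg).ext
  rw [wt_ext (h1.comp h3)]
  exact Dat.grd ⟨hi, oj, cov, cont, ret, h2.comp h3, h4⟩ hδ

end Vale.Agent.P275MH
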